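import Vale.Agent.P136S.Fin

open Vale.Agent.P136.Elasticity Vale.Agent.P136S
open scoped ContDiff

namespace Vale.Agent.Results.P136.AIntrinsic

/-- The inverse boundary value problem for isotropic elasticity in three dimensions, with moduli in
`C^∞(closure Ω)` in the intrinsic sense (nothing is assumed outside the closure of `Ω`).
(1) Q1: global uniqueness for all admissible pairs on all bounded connected smooth domains.
(2) The number `⟨Λ f, g⟩` exists and is unique for all these pairs.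
(3) On such domains the class `SmoothUpTo` is each of the usual classes `C^∞(closure Ω)`: smooth
on the closed set, all derivatives extend continuously to the closure, restrictions of smooth
functions on `ℝ³`. -/
theorem result :
    (∀ (Ω : Set E3) (lam₁ mu₁ lam₂ mu₂ : E3 → ℝ), SmoothDomain Ω →
      AdmissibleUpTo Ω lam₁ mu₁ → AdmissibleUpTo Ω lam₂ mu₂ → SameDN Ω lam₁ mu₁ lam₂ mu₂ →
      ∀ x ∈ closure Ω, lam₁ x = lam₂ x ∧ mu₁ x = mu₂ x) ∧
    (∀ (Ω : Set E3) (lam mu : E3 → ℝ), SmoothDomain Ω → AdmissibleUpTo Ω lam mu →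
      ∀ f g : H1 Ω, ∃! r : ℝ, DN Ω lam mu f g r) ∧
    (∀ (Ω : Set E3) (f : E3 → ℝ), SmoothDomain Ω →
      (SmoothUpTo Ω f ↔ ContDiffOn ℝ ∞ f (closure Ω)) ∧
      (SmoothUpTo Ω f ↔ ContDiffOn ℝ ∞ f Ω ∧ ContinuousOn f (closure Ω) ∧ ∀ k : ℕ,
        ∃ D, ContinuousOn D (closure Ω) ∧ ∀ x ∈ Ω, D x = iteratedFDeriv ℝ k f x) ∧
      (SmoothUpTo Ω f ↔ ∃ F, Smooth F ∧ ∀ x ∈ closure Ω, F x = f x)) := by
  refine ⟨fun Ω lam₁ mu₁ lam₂ mu₂ hΩ h₁ h₂ hDN => ?_, fun Ω lam mu hΩ h f g => ?_,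
    fun Ω f hΩ => ?_⟩
  · obtain ⟨L₁, M₁, a₁, b₁, c₁⟩ := h₁.ext hΩ
    obtain ⟨L₂, M₂, a₂, b₂, c₂⟩ := h₂.ext hΩ
    obtain ⟨e₁, d₁⟩ := P136.Rough.admissible_public hΩ.isOpen hΩ.isBounded a₁
    obtain ⟨e₂, d₂⟩ := P136.Rough.admissible_public hΩ.isOpen hΩ.isBounded a₂
    have H := P136.Rough.tangent_public (P136.Rough.smooth_tangentDomain hΩ) e₁ e₂ d₁ d₂
      fun f g r => by rw [b₁, b₂]; exact hDN f g r
    intro x hx
    rw [← (c₁ x hx).1, ← (c₁ x hx).2, ← (c₂ x hx).1, ← (c₂ x hx).2]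
    exact ⟨Set.EqOn.closure (fun y hy => (H y hy).1) a₁.1.continuous a₂.1.continuous hx,
      Set.EqOn.closure (fun y hy => (H y hy).2) a₁.2.1.continuous a₂.2.1.continuous hx⟩
  · obtain ⟨L, M, a, b, -⟩ := h.ext hΩ
    rw [← b]
    exact P136.H969.existsUnique_public hΩ.isOpen hΩ.isBounded a f g
  · have h1 : (∃ F, Smooth F ∧ ∀ x ∈ closure Ω, F x = f x) → ContDiffOn ℝ ∞ f (closure Ω) :=
      fun ⟨F, a, b⟩ => (ContDiff.contDiffOn a).congr fun x hx => (b x hx).symm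
    have h2 := of_closure (f := f) hΩ.isOpen hΩ.isBounded
    refine ⟨⟨fun h => h1 (h.ext hΩ), h2⟩, ⟨fun h => ⟨h.1, h.2.1, fun k => ?_⟩,
      fun h => ⟨h.1, h.2.1, fun k => ?_⟩⟩, fun h => h.ext hΩ, fun h => h2 (h1 h)⟩
    · obtain ⟨F, a, b⟩ := h.ext hΩ
      refine ⟨_, (ContDiff.continuous_iteratedFDeriv (le_inf k) a).continuousOn, fun x hx => ?_⟩
      exact (Filter.EventuallyEq.iteratedFDeriv ℝ (Filter.mem_of_superset (hΩ.isOpen.mem_nhds hx)
        fun y hy => b y (subset_closure hy)) k).eq_of_nhds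
    · obtain ⟨D, a, b⟩ := h.2.2 k
      obtain ⟨C, hC⟩ := hΩ.isBounded.isCompact_closure.exists_bound_of_continuousOn a
      exact ⟨C, fun x hx => b x hx ▸ hC x (subset_closure hx)⟩

end Vale.Agent.Results.P136.AIntrinsic
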