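import Vale.Agent.P136S.Ti

open MeasureTheory Vale.Agent.P136.Elasticity Vale.Agent.P136S
open scoped ContDiff

namespace Vale.Agent.Results.P136.ATraces

/-- The inverse boundary value problem for isotropic elasticity in three dimensions, with boundary
data given as fields on the boundary (traces) and moduli in `C^∞(closure Ω)`.
(1) Q1: equal displacement-to-traction maps imply equal moduli.
(2) It suffices that the maps agree on smooth fields.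
(3) The map is well defined on the traces of elements of `H¹(Ω; ℝ³)`.
(4) The trace theorem: existence and uniqueness of the trace, traces of smooth fields, and two
elements of `H¹` have the same trace iff their difference lies in `H¹₀`.
(5) The class of moduli is the class of smooth functions on the closed set. -/
theorem result :
    (∀ (Ω : Set E3) (lam₁ mu₁ lam₂ mu₂ : E3 → ℝ), SmoothDomain Ω →
      AdmissibleUpTo Ω lam₁ mu₁ → AdmissibleUpTo Ω lam₂ mu₂ →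
      (∀ f g r, TraceDN Ω lam₁ mu₁ f g r ↔ TraceDN Ω lam₂ mu₂ f g r) →
      ∀ x ∈ closure Ω, lam₁ x = lam₂ x ∧ mu₁ x = mu₂ x) ∧
    (∀ (Ω : Set E3) (lam₁ mu₁ lam₂ mu₂ : E3 → ℝ), SmoothDomain Ω →
      AdmissibleUpTo Ω lam₁ mu₁ → AdmissibleUpTo Ω lam₂ mu₂ →
      (∀ f g : Fin 3 → E3 → ℝ, (∀ j, Smooth (f j)) → (∀ j, Smooth (g j)) →
        ∃ r, TraceDN Ω lam₁ mu₁ f g r ∧ TraceDN Ω lam₂ mu₂ f g r) →
      ∀ x ∈ closure Ω, lam₁ x = lam₂ x ∧ mu₁ x = mu₂ x) ∧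
    (∀ (Ω : Set E3) (lam mu : E3 → ℝ), SmoothDomain Ω → AdmissibleUpTo Ω lam mu →
      ∀ f g : Fin 3 → E3 → ℝ, (∃ F : H1 Ω, HasTrace F f) → (∃ G : H1 Ω, HasTrace G g) →
        ∃! r, TraceDN Ω lam mu f g r) ∧
    (∀ Ω : Set E3, SmoothDomain Ω →
      (∀ u : H1 Ω, ∃ f, HasTrace u f ∧
        ∀ f', HasTrace u f' → ∀ j, f' j =ᵐ[μH[2].restrict (frontier Ω)] f j) ∧
      (∀ f : Fin 3 → E3 → ℝ, (∀ j, Smooth (f j)) → ∃ F : H1 Ω, F.val = f ∧ HasTrace F f) ∧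
      ∀ (u u' : H1 Ω) (f : Fin 3 → E3 → ℝ), HasTrace u f → (HasTrace u' f ↔ SameTrace u u')) ∧
    (∀ (Ω : Set E3) (f : E3 → ℝ), SmoothDomain Ω →
      (SmoothUpTo Ω f ↔ ContDiffOn ℝ ∞ f (closure Ω))) := by
  refine ⟨fun Ω lam₁ mu₁ lam₂ mu₂ hΩ h₁ h₂ H => eq_of_smooth hΩ h₁ h₂ fun f g hf hg => ?_,
    fun Ω lam₁ mu₁ lam₂ mu₂ hΩ h₁ h₂ H => eq_of_smooth hΩ h₁ h₂ H,
    fun Ω lam mu hΩ h f g ⟨F, hF⟩ ⟨G, hG⟩ => traceDN_unique hΩ h hF hG,
    fun Ω hΩ => ⟨fun u => (trace_exists hΩ u).imp fun f h => ⟨h, fun _ h' => trace_unique hΩ h' h⟩,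
      fun f hf => ⟨sH hΩ hf, rfl, sH_trace hΩ hf⟩, fun u u' f h => ⟨h.same hΩ, h.of_same hΩ⟩⟩,
    fun Ω f hΩ => ⟨fun h => ?_, of_closure hΩ.isOpen hΩ.isBounded⟩⟩
  · obtain ⟨r, hr⟩ := (traceDN_unique hΩ h₁ (sH_trace hΩ hf) (sH_trace hΩ hg)).exists
    exact ⟨r, hr, (H f g r).1 hr⟩
  · obtain ⟨F, a, b⟩ := h.ext hΩ
    exact (ContDiff.contDiffOn a).congr fun x hx => (b x hx).symm

end Vale.Agent.Results.P136.ATraces
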